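import Vale.Agent.P331.Bdl.B1

/-!
# One sample per element: almighty adversary with loss `O(log log rank)`, ratio `1/4` against
exchange-symmetric orders, and the matroid secretary theorem with ratio `1/8`
-/

namespace Vale.Agent.Results.P331.AllThree

open Vale.Agent.P331 Vale.Agent.P331.Osel
open scoped ENNReal

/-- For every finite matroid `M` of rank `r`: (1) there is a measurable online rule with one sample
per element which is `1 / (8 ⌈log₂ ⌈log₂ r⌉⌉ + 66)`-competitive against the almighty adversary;
(2) there is one which is `1 / 4`-competitive against every arrival order that is a measurable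
function of the seed, the sample and the values and does not change when `S_e` and `V_e` are
exchanged; (3) the matroid secretary problem (fixed unknown weights, uniformly random order) has a
rule with ratio `1 / 8`. -/
theorem result {E : Type} [Fintype E] (M : Matroid E) (hM : M.E = Set.univ) :
    (∃ R : OnlineRule M,
        R.IsCompetitive ((8 * (Nat.clog 2 (Nat.clog 2 M.eRank.toNat) : ℝ≥0∞) + 66)⁻¹)) ∧
      (∃ R : OnlineRule M, IsSymCompetitive R (1 / 4)) ∧
        ∃ R : SecretaryRule M, R.IsCompetitive (1 / 8) := by
  refine ⟨⟨theRule hM (Nat.clog 2 (Nat.clog 2 M.eRank.toNat)), theRule_competitive hM _ ?_⟩,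
    ⟨symRule hM, ?_⟩, exists_secretaryRule hM⟩
  · have hfin : M.eRank ≠ ⊤ := by
      have h1 : M.eRank ≤ M.E.encard := M.eRank_le_encard_ground
      have h2 : M.E.encard < ⊤ := (M.E.toFinite).encard_lt_top
      exact (lt_of_le_of_lt h1 h2).ne
    have h3 : M.eRank.toNat ≤ 2 ^ 2 ^ Nat.clog 2 (Nat.clog 2 M.eRank.toNat) := by
      refine (Nat.le_pow_clog one_lt_two _).trans ?_
      exact Nat.pow_le_pow_right two_pos (Nat.le_pow_clog one_lt_two _)
    calc M.eRank = (M.eRank.toNat : ℕ∞) := (ENat.natCast_toNat hfin).symm
      _ ≤ _ := by exact_mod_cast h3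
  · rw [one_div]
    exact symRule_of_core hM 4⁻¹ (core hM)

end Vale.Agent.Results.P331.AllThree
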