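import Vale.Agent.P331.Bdl.B1

/-!
# One-sample matroid prophet inequality against the almighty adversary with loss `O(log log rank)`
-/

namespace Vale.Agent.Results.P331.LogLogAlmighty

open Vale.Agent.P331
open scoped ENNReal

/-- Every finite matroid `M` of rank `r` has a measurable online rule with one sample per element
which is `1 / (8 ⌈log₂ ⌈log₂ r⌉⌉ + 66)`-competitive against the almighty adversary. -/
theorem result {E : Type} [Fintype E] (M : Matroid E) (hM : M.E = Set.univ) :
    ∃ R : OnlineRule M,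
      R.IsCompetitive ((8 * (Nat.clog 2 (Nat.clog 2 M.eRank.toNat) : ℝ≥0∞) + 66)⁻¹) := by
  refine ⟨theRule hM (Nat.clog 2 (Nat.clog 2 M.eRank.toNat)), theRule_competitive hM _ ?_⟩
  have hfin : M.eRank ≠ ⊤ := by
    have h1 : M.eRank ≤ M.E.encard := M.eRank_le_encard_ground
    have h2 : M.E.encard < ⊤ := (M.E.toFinite).encard_lt_top
    exact (lt_of_le_of_lt h1 h2).ne
  have h3 : M.eRank.toNat ≤ 2 ^ 2 ^ Nat.clog 2 (Nat.clog 2 M.eRank.toNat) := by
    refine (Nat.le_pow_clog one_lt_two _).trans ?_
    exact Nat.pow_le_pow_right two_pos (Nat.le_pow_clog one_lt_two _)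
  calc M.eRank = (M.eRank.toNat : ℕ∞) := (ENat.natCast_toNat hfin).symm
    _ ≤ _ := by exact_mod_cast h3

end Vale.Agent.Results.P331.LogLogAlmighty
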