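import Vale.Agent.P331.Bdl.B1

/-!
# One sample per element: ratio 1/4 for every matroid against exchange-symmetric orders, and the
matroid secretary theorem with ratio 1/8
-/

namespace Vale.Agent.Results.P331.OneSampleAndSecretary

open Vale.Agent.P331 Vale.Agent.P331.Osel
open scoped ENNReal

/-- Every finite matroid has (1) a measurable online rule with one sample per element which is
`1 / 4`-competitive against every arrival order that is a measurable function of the seed, the
sample and the values and does not change when `S_e` and `V_e` are exchanged, and (2) a rule for the
matroid secretary problem (fixed unknown weights, uniformly random order) with ratio `1 / 8`. -/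
theorem result {E : Type} [Fintype E] (M : Matroid E) (hM : M.E = Set.univ) :
    (∃ R : OnlineRule M, IsSymCompetitive R (1 / 4)) ∧
      ∃ R : SecretaryRule M, R.IsCompetitive (1 / 8) := by
  refine ⟨⟨symRule hM, ?_⟩, exists_secretaryRule hM⟩
  rw [one_div]
  exact symRule_of_core hM 4⁻¹ (core hM)

end Vale.Agent.Results.P331.OneSampleAndSecretary
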