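import Vale.Agent.P331.Bdl.B1

/-!
# One sample per element: ratio 1/4 for every matroid against exchange-symmetric orders
-/

namespace Vale.Agent.Results.P331.QuarterExchange

open Vale.Agent.P331 Vale.Agent.P331.Osel
open scoped ENNReal

/-- Every finite matroid has a measurable online rule with one sample per element which is
`1 / 4`-competitive against every arrival order that is a measurable function of the seed, the
sample and the values and does not change when `S_e` and `V_e` are exchanged. -/
theorem result {E : Type} [Fintype E] (M : Matroid E) (hM : M.E = Set.univ) :
    ∃ R : OnlineRule M, IsSymCompetitive R 4⁻¹ :=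
  ⟨symRule hM, symRule_of_core hM 4⁻¹ (core hM)⟩

end Vale.Agent.Results.P331.QuarterExchange
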